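import Crest.Agent.R141.Realize

/-! Random 3-SAT at positive temperature as a finite model (owner: helper18, do not edit). -/

set_option autoImplicit false

namespace Crest.Agent.R153

open Crest.Agent.R141 Finset

/-- a violated clause has the weight `q`, a satisfied one the weight `1`; `f : Bool` is the value
that satisfies the literal -/
noncomputable def satFM (q : ℝ) (hq : 0 < q ∧ q < 1) : FM 3 where
  C := Unit
  Φ := Bool
  H := Unit
  pC := PV.unif Unit
  pΦ := PV.unif Bool
  pH := PV.unif Unit
  c _ := 1 - q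
  φ f b := if b = f then 0 else 1
  hv _ := 0
  lt_one _ f s := by
    have h1 : |∏ l, (if s l = f l then (0 : ℝ) else 1)| ≤ 1 := by
      rw [abs_prod]
      exact prod_le_one (fun _ _ => abs_nonneg _) fun l _ => by split_ifs <;> simp
    rw [abs_mul, abs_of_pos (by linarith [hq.2])]
    nlinarith [hq.1, hq.2, abs_nonneg (∏ l, (if s l = f l then (0 : ℝ) else 1))]

/-- some uniform rational trial certifies a negative pressure at the density `c` -/
def NegTrial (c : ℚ) : Prop :=
  ∃ (q : ℚ) (hq : 0 < (q : ℝ) ∧ (q : ℝ) < 1) (s r a : ℕ) (π : (Fin (r + 1) → Fin (a + 1)) → ℚ),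
    (∀ u, 0 ≤ π u ∧ π u ≤ 1) ∧ (satFM q hq).UP c (gridm s r) (fun u => (π u : ℝ)) < 0

end Crest.Agent.R153
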