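import Crest.Agent.R153.Sat
import Crest.Agent.Lib.RatPrimrec.Basic
import Crest.Agent.R153.CompB.Link

/-! Computability, part B (task R153 CompB): `NegTrial` is semidecidable.

A witness codes `(q, s, r, a, P, K, J, T, T')`: `P` is the table of `π`; `T`, `T'` are tables of
rational upper (site) / lower (edge) bounds for the `N`-th roots, `N = (s+r+1) J`, of all the nested
power means (so only rational inequalities are checked, `CompB/Cert.lean`); logarithms are bounded
through `N (1 - 1/y) ≤ N log y ≤ N (y - 1)`, the Poisson sum is cut at `K`. -/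

set_option autoImplicit false

namespace Crest.Agent.R153

namespace CompB

open CompA PR Crest.Agent.R141 Crest.ProbabilityR.Diluted Finset Filter Topology

theorem chk_iff (c q : ℚ) (s r a : ℕ) (P : List ℚ) (K J : ℕ) (T T' : List ℚ) :
    chk c q s r a P K J T T' = true ↔ (0 < q ∧ q < 1) ∧
      (∀ κ ∈ lay a (r + 1), 0 ≤ tb P κ ∧ tb P κ ≤ 1) ∧ ((1 : ℚ) ≤ J ∧ 3 * c ≤ J) ∧
      (∀ k < K, ∀ θ ∈ allL (bits 3) k, ck true (s + r + 1) J r (s + 1) (lay a (2 * k))
        (fun pre => Wsite q P θ pre) (fun pre => tb T (θ, pre)) = true) ∧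
      (∀ f ∈ bits 3, ck false (s + r + 1) J r (s + 1) (lay a 3)
        (fun pre => Wedge q P f pre) (fun pre => tb T' (f, pre)) = true) ∧
      ub c ((s + r + 1) * J) a K J T T' < 0 := by
  simp only [chk, Bool.and_eq_true, List.all_eq_true, List.mem_range, rle, Bool.not_eq_true',
    decide_eq_false_iff_not, not_le, decide_eq_true_eq]

theorem cast_ub (c : ℚ) (N a K J : ℕ) (T T' : List ℚ) : (ub c N a K J T T' : ℝ) =
    1 - ∑ k ∈ range K, (1 - 3 * (c : ℝ) / J) ^ J * (3 * c) ^ k / k.factorial *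
      (1 - (fup N a T k : ℝ)) - 2 * c * (glo N a T' : ℝ) := by
  rw [← sum_map_range]
  unfold ub
  push_cast
  rw [List.map_map]
  congr 4
  funext k
  simp

theorem lay_ne_nil (a l : ℕ) : lay a l ≠ [] := (enum_key a l).ne_nil

theorem bits_ne_nil (l : ℕ) : bits l ≠ [] := (enum_bits l).ne_nil

theorem Θ_ne_nil (k : ℕ) : allL (bits 3) k ≠ [] := ((enum_bits 3).pi k).ne_nil

section
variable {q : ℚ} (hq : 0 < (q : ℝ) ∧ (q : ℝ) < 1) (s : ℕ) {r a : ℕ}
  {π : (Fin (r + 1) → Fin (a + 1)) → ℝ} {P : List ℚ}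
  (hP : ∀ x, π x = tb P (List.ofFn fun i => (x i).val)) (hπ : ∀ x, 0 ≤ π x ∧ π x ≤ 1)

theorem UP_eq (c : ℝ) : (satFM q hq).UP c (gridm s r) π =
    (∑' k, poissonWeight (3 * c) k * fk hq s π k) - 2 * c * ge hq s π := by
  unfold FM.UP fk ge
  rw [mul_comm 3 c]
  norm_num [mul_comm c 2]

include hP hπ in
theorem fk_mem (k : ℕ) : k * Real.log q ≤ fk hq s π k ∧ fk hq s π k ≤ 1 := by
  have key : ∀ θ ∈ allL (bits 3) k, ∀ x ∈ lay a (2 * k), _ := fun θ hθ x hx =>
    G_mem (lay_ne_nil a (2 * k)) (R := s + r + 1) (by omega) (pow_pos hq.1 k)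
      (Wsite_mem hq hP hπ hθ) r 0 (s + 1) (by omega) (by omega) [x] (single_mem hx)
  rw [fk_eq hq s hP]
  constructor
  · rw [← avgR_const (Θ_ne_nil k) (k * Real.log q)]
    refine avgR_mono fun θ hθ => ?_
    rw [← avgR_const (lay_ne_nil a (2 * k)) (k * Real.log q)]
    refine avgR_mono fun x hx => ?_
    rw [← Real.log_pow]
    exact Real.log_le_log (pow_pos hq.1 k) (key θ hθ x hx).1
  · refine le_trans (avgR_mono fun θ hθ => ?_) (avgR_const (Θ_ne_nil k) 1).le
    refine le_trans (avgR_mono fun x hx => ?_) (avgR_const (lay_ne_nil a (2 * k)) 1).le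
    have h := key θ hθ x hx
    have := Real.log_le_sub_one_of_pos ((pow_pos hq.1 k).trans_le h.1)
    linarith [h.2]

include hP hπ in
theorem hasSum_fk {lam : ℝ} (hl : 0 ≤ lam) :
    HasSum (fun k => poissonWeight lam k * (1 - fk hq s π k))
      (1 - ∑' k, poissonWeight lam k * fk hq s π k) := by
  have h1 : Summable fun k => poissonWeight lam k * fk hq s π k := by
    refine summable_poi hl (C := |Real.log q| + 1) fun k => ?_
    obtain ⟨a1, a2⟩ := fk_mem hq s hP hπ k
    have a3 := neg_abs_le (Real.log q)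
    have a4 := abs_nonneg (Real.log q)
    have a5 : (0 : ℝ) ≤ k := Nat.cast_nonneg k
    rw [abs_le]
    constructor <;> nlinarith
  simpa only [mul_sub, mul_one] using (hasSum_poi lam).sub h1.hasSum

end

theorem sound {c : ℚ} (hc : 0 ≤ c) {q : ℚ} {s r a : ℕ} {P : List ℚ} {K J : ℕ} {T T' : List ℚ}
    (h : chk c q s r a P K J T T' = true) : NegTrial c := by
  obtain ⟨h1, h2, h3, h4, h5, h6⟩ := (chk_iff _ _ _ _ _ _ _ _ _ _).1 h
  have hq : 0 < (q : ℝ) ∧ (q : ℝ) < 1 := ⟨by exact_mod_cast h1.1, by exact_mod_cast h1.2⟩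
  have hπ' : ∀ x : Fin (r + 1) → Fin (a + 1), _ := fun x => h2 _ ((enum_key a (r + 1)).mem x)
  refine ⟨q, hq, s, r, a, fun x => tb P (List.ofFn fun i => (x i).val), hπ', ?_⟩
  set π : (Fin (r + 1) → Fin (a + 1)) → ℝ := fun x => (tb P (List.ofFn fun i => (x i).val) : ℚ)
  have hP : ∀ x, π x = tb P (List.ofFn fun i => (x i).val) := fun _ => rfl
  have hπ : ∀ x, 0 ≤ π x ∧ π x ≤ 1 := fun x =>
    ⟨Rat.cast_nonneg.2 (hπ' x).1, by rw [hP]; exact_mod_cast (hπ' x).2⟩
  have hc' : (0 : ℝ) ≤ c := by exact_mod_cast hc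
  have hJ1 : (1 : ℝ) ≤ J := by exact_mod_cast h3.1
  have hJ2 : 3 * (c : ℝ) ≤ J := by exact_mod_cast h3.2
  have h6' : (ub c ((s + r + 1) * J) a K J T T' : ℝ) < 0 := by exact_mod_cast h6
  refine lt_of_le_of_lt ?_ h6'
  rw [UP_eq, cast_ub]
  have e1 : (glo ((s + r + 1) * J) a T' : ℝ) ≤ ge hq s π := by
    rw [ge_eq hq s hP, glo, cast_avg]
    exact avgR_mono fun f hf => lower_sound (lay_ne_nil a 3) (by omega) hq.1
      (Wedge_mem hq hP hπ hf) (by omega) (h5 f hf)
  have e2 : ∀ k < K, fk hq s π k ≤ (fup ((s + r + 1) * J) a T k : ℝ) := by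
    intro k hk
    rw [fk_eq hq s hP, fup, cast_avg]
    exact avgR_mono fun θ hθ => upper_sound (lay_ne_nil a _) (by omega) (pow_pos hq.1 k)
      (Wsite_mem hq hP hπ hθ) (by omega) (h4 k hk θ hθ)
  have e3 := sum_le_hasSum (range K) (fun k _ => mul_nonneg (poi_nonneg (by positivity) k)
    (sub_nonneg.2 (fk_mem hq s hP hπ k).2)) (hasSum_fk hq s hP hπ (lam := 3 * c) (by positivity))
  have e4 : ∑ k ∈ range K, (1 - 3 * (c : ℝ) / J) ^ J * (3 * c) ^ k / k.factorial *
      (1 - (fup ((s + r + 1) * J) a T k : ℝ)) ≤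
      ∑ k ∈ range K, poissonWeight (3 * c) k * (1 - fk hq s π k) := by
    refine sum_le_sum fun k hk => ?_
    have a0 : 0 ≤ 1 - 3 * (c : ℝ) / J := by
      rw [sub_nonneg, div_le_one (by linarith)]; exact hJ2
    have a1 := Real.one_sub_div_pow_le_exp_neg hJ2
    refine (mul_le_mul_of_nonneg_left (sub_le_sub_left (e2 k (mem_range.1 hk)) 1)
      (by positivity)).trans (mul_le_mul_of_nonneg_right ?_ (sub_nonneg.2 (fk_mem hq s hP hπ k).2))
    unfold poissonWeight
    gcongr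
  have e5 := mul_le_mul_of_nonneg_left e1 (by positivity : 0 ≤ 2 * (c : ℝ))
  linarith

theorem complete {c : ℚ} (hc : 0 ≤ c) (h : NegTrial c) :
    ∃ q s r a P K J T T', chk c q s r a P K J T T' = true := by
  obtain ⟨q, hq, s, r, a, πq, hπ', hUP⟩ := h
  have hinj : Function.Injective fun x : Fin (r + 1) → Fin (a + 1) =>
      List.ofFn fun i => (x i).val := fun x y h =>
    funext fun i => Fin.ext (congrFun (List.ofFn_injective h) i)
  obtain ⟨P, hP'⟩ := exists_tb (Set.finite_range fun x : Fin (r + 1) → Fin (a + 1) =>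
    List.ofFn fun i => (x i).val) (Function.extend (fun x : Fin (r + 1) → Fin (a + 1) =>
      List.ofFn fun i => (x i).val) πq 0)
  have hPq : ∀ x, tb P (List.ofFn fun i => (x i).val) = πq x := fun x =>
    (hP' _ ⟨x, rfl⟩).trans (hinj.extend_apply _ _ x)
  set π : (Fin (r + 1) → Fin (a + 1)) → ℝ := fun x => (πq x : ℝ) with hπdef
  have hP : ∀ x, π x = tb P (List.ofFn fun i => (x i).val) := fun x => by rw [hPq]
  have hπ : ∀ x, 0 ≤ π x ∧ π x ≤ 1 := fun x =>
    ⟨Rat.cast_nonneg.2 (hπ' x).1, by simp only [hπdef]; exact_mod_cast (hπ' x).2⟩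
  have hc' : (0 : ℝ) ≤ c := by exact_mod_cast hc
  rw [UP_eq] at hUP
  set S := ∑' k, poissonWeight (3 * c) k * fk hq s π k with hS
  set η := -(S - 2 * c * ge hq s π) with hη
  have hη0 : 0 < η := by linarith
  set ε := η / (4 * (1 + 2 * c)) with hε
  have hε0 : 0 < ε := by positivity
  have hε1 : ε + 2 * c * ε = η / 4 := by rw [hε]; field_simp
  obtain ⟨K, hK⟩ := ((hasSum_fk hq s hP hπ (lam := 3 * c) (by positivity)).tendsto_sum_nat.eventually
    (eventually_gt_nhds (sub_lt_self (1 - S) (by positivity : 0 < η / 4)))).exists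
  have t1 : Tendsto (fun J : ℕ => ∑ k ∈ range K, (1 - 3 * (c : ℝ) / J) ^ J * (3 * c) ^ k /
      k.factorial * (1 - (fk hq s π k + ε))) atTop
      (𝓝 (∑ k ∈ range K, poissonWeight (3 * c) k * (1 - (fk hq s π k + ε)))) := by
    refine tendsto_finsetSum _ fun k _ => ?_
    have := Real.tendsto_one_add_div_pow_exp (-(3 * (c : ℝ)))
    simp only [neg_div, ← sub_eq_add_neg] at this
    exact ((this.mul_const _).div_const _).mul_const _
  have t2 := t1.eventually (eventually_gt_nhds (sub_lt_self _ (by positivity : 0 < η / 4)))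
  have t3 := (eventually_all_finset (range K)).2 fun k _ =>
    (eventually_all_finite (allL (bits 3) k).finite_toSet).2 fun θ hθ =>
      upper_complete (lay_ne_nil a (2 * k)) (R := s + r + 1) (by omega) (pow_pos hq.1 k)
        (Wsite_mem hq hP hπ hθ) (e₀ := s + 1) (by omega) hε0
  have t4 := (eventually_all_finite (bits 3).finite_toSet).2 fun f hf =>
    lower_complete (lay_ne_nil a 3) (R := s + r + 1) (by omega) hq.1
      (Wedge_mem hq hP hπ hf) (e₀ := s + 1) (by omega) hε0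
  have t5 := (tendsto_natCast_atTop_atTop (R := ℝ)).eventually_ge_atTop (3 * c)
  obtain ⟨J, j2, j3, j4, j5, j1⟩ :=
    (t2.and (t3.and (t4.and (t5.and (eventually_ge_atTop 1))))).exists
  choose! Y hY using j3
  choose! Y' hY' using j4
  obtain ⟨T, hT⟩ := exists_tb (K := List (List Bool) × List (List ℕ))
    (S := ⋃ k ∈ range K, ⋃ d ∈ range (r + 1),
      {θ | θ ∈ allL (bits 3) k} ×ˢ {pre | pre ∈ allL (lay a (2 * k)) (d + 1)})
    ((range K).finite_toSet.biUnion fun k _ => (range (r + 1)).finite_toSet.biUnion fun d _ =>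
      (List.finite_toSet _).prod (List.finite_toSet _)) fun κ => Y κ.1.length κ.1 κ.2
  obtain ⟨T', hT'⟩ := exists_tb (K := List Bool × List (List ℕ))
    (S := ⋃ d ∈ range (r + 1), {f | f ∈ bits 3} ×ˢ {pre | pre ∈ allL (lay a 3) (d + 1)})
    ((range (r + 1)).finite_toSet.biUnion fun d _ =>
      (List.finite_toSet _).prod (List.finite_toSet _)) fun κ => Y' κ.1 κ.2
  have k1 := fun k (hk : k < K) θ (hθ : θ ∈ allL (bits 3) k) =>
    hY k (mem_range.2 hk) θ hθ (fun pre => tb T (θ, pre)) fun d hd pre hp => by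
      rw [hT (θ, pre) (Set.mem_biUnion (mem_range.2 hk)
        (Set.mem_biUnion (mem_range.2 (Nat.lt_succ_of_le hd)) ⟨hθ, hp⟩))]
      simp only [((mem_allL _ _ _).1 hθ).1]
  have k2 := fun f (hf : f ∈ bits 3) =>
    hY' f hf (fun pre => tb T' (f, pre)) fun d hd pre hp =>
      hT' (f, pre) (Set.mem_biUnion (mem_range.2 (Nat.lt_succ_of_le hd)) ⟨hf, hp⟩)
  refine ⟨q, s, r, a, P, K, J, T, T', (chk_iff _ _ _ _ _ _ _ _ _ _).2
    ⟨⟨by exact_mod_cast hq.1, by exact_mod_cast hq.2⟩, fun κ hκ => ?_,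
      ⟨by exact_mod_cast j1, by exact_mod_cast j5⟩, fun k hk θ hθ => (k1 k hk θ hθ).1,
      fun f hf => (k2 f hf).1, ?_⟩⟩
  · obtain ⟨x, rfl⟩ := (enum_key a (r + 1)).surj hκ
    rw [hPq]
    exact hπ' x
  · have e1 : ge hq s π ≤ (glo ((s + r + 1) * J) a T' : ℝ) + ε := by
      rw [ge_eq hq s hP, glo, cast_avg, ← avgR_add_const (bits_ne_nil 3)]
      exact avgR_mono fun f hf => (k2 f hf).2
    have e2 : ∀ k < K, (fup ((s + r + 1) * J) a T k : ℝ) ≤ fk hq s π k + ε := by
      intro k hk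
      rw [fk_eq hq s hP, fup, cast_avg, ← avgR_add_const (Θ_ne_nil k)]
      exact avgR_mono fun θ hθ => (k1 k hk θ hθ).2
    have hJ1 : (1 : ℝ) ≤ J := by exact_mod_cast j1
    have e3 : ∑ k ∈ range K, (1 - 3 * (c : ℝ) / J) ^ J * (3 * c) ^ k / k.factorial *
        (1 - (fk hq s π k + ε)) ≤ ∑ k ∈ range K, (1 - 3 * (c : ℝ) / J) ^ J * (3 * c) ^ k /
        k.factorial * (1 - (fup ((s + r + 1) * J) a T k : ℝ)) := by
      refine sum_le_sum fun k hk => ?_
      have a0 : 0 ≤ 1 - 3 * (c : ℝ) / J := by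
        rw [sub_nonneg, div_le_one (by linarith)]; exact j5
      exact mul_le_mul_of_nonneg_left (sub_le_sub_left (e2 k (mem_range.1 hk)) 1) (by positivity)
    have e4 : ∑ k ∈ range K, poissonWeight (3 * c) k * (1 - (fk hq s π k + ε)) =
        ∑ k ∈ range K, poissonWeight (3 * c) k * (1 - fk hq s π k) -
          ε * ∑ k ∈ range K, poissonWeight (3 * c) k := by
      rw [mul_sum, ← sum_sub_distrib]
      exact sum_congr rfl fun k _ => by ring
    have e5 := sum_le_hasSum (range K) (fun k _ => poi_nonneg (a := 3 * c) (by positivity) k)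
      (hasSum_poi _)
    have e6 := mul_le_mul_of_nonneg_left e5 hε0.le
    have e7 := mul_le_mul_of_nonneg_left e1 (by positivity : 0 ≤ 2 * (c : ℝ))
    have e8 : (ub c ((s + r + 1) * J) a K J T T' : ℝ) < 0 := by
      rw [cast_ub]
      linarith
    exact_mod_cast e8

end CompB

theorem certB : ∃ B : ℚ × ℕ → Bool, Computable B ∧
    ∀ c : ℚ, 0 ≤ c → ((∃ w, B (c, w) = true) ↔ NegTrial c) := by
  obtain ⟨B, hB, h⟩ := CompB.exists_B
  refine ⟨B, hB, fun c hc => (h c).trans ⟨?_, CompB.complete hc⟩⟩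
  rintro ⟨q, s, r, a, P, K, J, T, T', hx⟩
  exact CompB.sound hc hx

end Crest.Agent.R153
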