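import Crest.Agent.R153.ExpTail
import Crest.Agent.R153.CompA
import Crest.Agent.R153.CompB
import Crest.Agent.R141.Lower
import Crest.Agent.R141.Upper

/-! Assembly of S0218 (task R153 Final; the owner also lands `Crest/Agent/S0218.lean`). -/

set_option autoImplicit false

namespace Crest.Agent.R153

open Crest.Agent.R141 Crest.ProbabilityR.RandomSAT Crest.ProbabilityR.Diluted Finset Filter

theorem satFM_pos (q : ℝ) (hq : 0 < q ∧ q < 1) : (satFM q hq).Pos := by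
  refine ⟨fun n _ => PV.E_nonneg _ fun a => pow_nonneg ?_ _, Or.inr fun f b => ?_⟩
  · show 0 ≤ 1 - q
    linarith [hq.2]
  · show (0 : ℝ) ≤ @ite ℝ (@Eq Bool b f) (instDecidableEqBool b f) 0 1
    split_ifs <;> norm_num

namespace FinalT

open scoped BigOperators

theorem Dis_mono {p : ℕ} (M : FM p) (V : Type) [Fintype V] [DecidableEq V] (K : ℕ)
    {F G : (Fin K → M.Θ) → (Fin K → Fin p → V) → (V → M.H) → ℝ}
    (h : ∀ θ idx a, F θ idx a ≤ G θ idx a) : M.Dis V K F ≤ M.Dis V K G :=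
  PV.E_mono _ fun _ => Finset.expect_le_expect fun _ _ => PV.E_mono _ fun _ => h _ _ _

theorem Dis_eq (q : ℝ) (hq : 0 < q ∧ q < 1) (N K : ℕ) (φ : List (WC N) → ℝ) :
    (satFM q hq).Dis (Fin N) K (fun θ idx _ => φ (List.ofFn fun j => (idx j, (θ j).2))) =
      EL (univ : Finset (WC N)) K φ := by
  unfold FM.Dis
  simp only [PV.E_const]
  have h1 := PV.E_pi_map (satFM q hq).pΘ (PV.unif (Fin 3 → Bool)) (ι := Fin K)
    (fun _ θ => θ.2) (fun _ g => by
      rw [FM.pΘ, PV.E_prod]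
      simp only [PV.E_const]
      rw [PV.unif_E]
      exact PV.unif_pi_E g)
    (fun b => 𝔼 idx : Fin K → Fin 3 → Fin N, φ (List.ofFn fun j => (idx j, b j)))
  rw [PV.unif_pi_E] at h1
  refine h1.trans ?_
  rw [EL_univ_eq, av_univ, Finset.expect_comm, ← R153A.expect_prod'
    (fun x : (Fin K → Fin 3 → Fin N) × (Fin K → Fin 3 → Bool) =>
      φ (List.ofFn fun j => (x.1 j, x.2 j)))]
  exact Fintype.expect_equiv (Equiv.arrowProdEquivProdArrow _ _ _).symm _ _ fun x => rfl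

open Classical in
theorem cnt_ofFn {α : Type} {n : ℕ} (s : α → Set (Asg n)) (σ : Asg n) :
    ∀ {K : ℕ} (F : Fin K → α),
      (ZeroT.cnt s σ (List.ofFn F) : ℝ) = ∑ j, if σ ∈ s (F j) then 0 else 1
  | 0, F => by simp [ZeroT.cnt_nil]
  | K + 1, F => by
    rw [List.ofFn_succ, Fin.sum_univ_succ, ← cnt_ofFn s σ fun j => F j.succ]
    split_ifs with h
    · rw [ZeroT.cnt_cons_mem s _ h, zero_add]
    · rw [ZeroT.cnt_cons_not s _ h]
      push_cast
      ring

theorem Ham_eq (q : ℝ) (hq : 0 < q ∧ q < 1) {N K : ℕ} (θ : Fin K → (satFM q hq).Θ)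
    (idx : Fin K → Fin 3 → Fin N) (a : Fin N → (satFM q hq).H) (σ : Fin N → Bool) :
    (satFM q hq).Ham θ idx a σ =
      Real.log q * ZeroT.cnt wsat σ (List.ofFn fun j => ((idx j, (θ j).2) : WC N)) := by
  classical
  have h0 : ∑ i, (satFM q hq).hv (a i) * spinVal (σ i) = 0 :=
    Finset.sum_eq_zero fun i _ => zero_mul _
  rw [FM.Ham, h0, add_zero, cnt_ofFn, Finset.mul_sum]
  refine Finset.sum_congr rfl fun j _ => ?_
  have e : (satFM q hq).w (θ j) (fun l => σ (idx j l)) =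
      1 - (1 - q) * ∏ l, @ite ℝ (@Eq Bool (σ (idx j l)) ((θ j).2 l))
        (instDecidableEqBool _ _) 0 1 := rfl
  rw [e]
  split_ifs with h
  · obtain ⟨l, hl⟩ := h
    rw [Finset.prod_eq_zero (mem_univ l) (by exact if_pos hl)]
    simp
  · rw [Finset.prod_eq_one fun l _ => if_neg fun hl => h ⟨l, hl⟩]
    simp

end FinalT

open FinalT

/-- `exp (Ham σ) = q^{number of violated clauses}`, so `q^{mv} ≤ Z ≤ 2^N q^{mv}`; the disorder average is
the uniform average over `Fin K → WC N` (`PV.unif_pi_E`, `PV.unif_prod_E`, `EL_univ_eq`) -/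
theorem FZ_sat (q : ℝ) (hq : 0 < q ∧ q < 1) {N : ℕ} (hN : 0 < N) (K : ℕ) :
    Real.log q * EV N K ≤ (satFM q hq).FZ N K ∧
      (satFM q hq).FZ N K ≤ N * Real.log 2 + Real.log q * EV N K := by
  have hL : Real.log q ≤ 0 := Real.log_nonpos hq.1.le hq.2.le
  have e1 : Real.log q * EV N K = EL (univ : Finset (WC N)) K
      fun l => Real.log q * (mv wsat l : ℝ) := (EL_mul_left _ _ _ _).symm
  have e2 : N * Real.log 2 + Real.log q * EV N K = EL (univ : Finset (WC N)) K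
      fun l => N * Real.log 2 + Real.log q * (mv wsat l : ℝ) := by
    rw [EL_add, EL_const (ZeroT.WC_nonempty hN), e1]
  have hpos : ∀ (θ : Fin K → (satFM q hq).Θ) (idx : Fin K → Fin 3 → Fin N)
      (a : Fin N → (satFM q hq).H),
      0 < ∑ σ : Fin N → Bool, Real.exp ((satFM q hq).Ham θ idx a σ) := fun θ idx a =>
    Finset.sum_pos (fun _ _ => Real.exp_pos _) univ_nonempty
  constructor
  · rw [e1, ← Dis_eq q hq]
    refine Dis_mono _ _ _ fun θ idx a => ?_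
    obtain ⟨σ, hσ⟩ := ZeroT.mv_ex wsat (List.ofFn fun j => ((idx j, (θ j).2) : WC N))
    rw [Real.le_log_iff_exp_le (hpos θ idx a), hσ, ← Ham_eq q hq θ idx a σ]
    exact Finset.single_le_sum (f := fun σ => Real.exp ((satFM q hq).Ham θ idx a σ))
      (fun _ _ => (Real.exp_pos _).le) (mem_univ σ)
  · rw [e2, ← Dis_eq q hq]
    refine Dis_mono _ _ _ fun θ idx a => ?_
    rw [Real.log_le_iff_le_exp (hpos θ idx a), Real.exp_add, Real.exp_nat_mul,
      Real.exp_log (by norm_num)]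
    refine (Finset.sum_le_card_nsmul _ _ (Real.exp (Real.log q *
      (mv wsat (List.ofFn fun j => ((idx j, (θ j).2) : WC N)) : ℝ))) fun σ _ => ?_).trans ?_
    · rw [Ham_eq]
      refine Real.exp_le_exp.2 (mul_le_mul_of_nonpos_left ?_ hL)
      exact_mod_cast ZeroT.mv_le wsat _ σ
    · simp

namespace FinalT

theorem pres_bounds (q : ℝ) (hq : 0 < q ∧ q < 1) {N : ℕ} (hN : 0 < N) {c : ℝ} (hc : 0 ≤ c)
    (m : ℕ) :
    Real.log q * (EV N m + |(m : ℝ) - c * N| + √(c * N)) ≤ N * (satFM q hq).pres c N ∧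
      N * (satFM q hq).pres c N ≤
        N * Real.log 2 + Real.log q * (EV N m - |(m : ℝ) - c * N| - √(c * N)) := by
  have hL : Real.log q ≤ 0 := Real.log_nonpos hq.1.le hq.2.le
  have hN' : (0 : ℝ) < N := by exact_mod_cast hN
  have ha : 0 ≤ c * N := by positivity
  have hl2 : 0 ≤ N * Real.log 2 := mul_nonneg hN'.le (Real.log_nonneg (by norm_num))
  set a := c * N with hadef
  have e : N * (satFM q hq).pres c N = ∑' K : ℕ, poissonWeight a K * (satFM q hq).FZ N K := by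
    rw [FM.pres, ← mul_assoc, mul_one_div_cancel hN'.ne', one_mul]
  have s1 : Summable fun K : ℕ => poissonWeight a K * (satFM q hq).FZ N K := by
    refine summable_poi ha (C := N * Real.log 2 + -Real.log q * (EV N 0 + 1)) fun K => ?_
    obtain ⟨h1, h2⟩ := FZ_sat q hq hN K
    have h3 := ZeroT.EV_le_abs hN K 0
    rw [Nat.cast_zero, sub_zero, Nat.abs_cast] at h3
    have h4 := EV_nonneg N K
    have h5 := EV_nonneg N 0
    have hK : (0 : ℝ) ≤ K := Nat.cast_nonneg K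
    have h6 : EV N K ≤ (EV N 0 + 1) * (K + 1) := by nlinarith
    have h7 := mul_le_mul_of_nonpos_left h6 hL
    have h8 := mul_nonpos_of_nonpos_of_nonneg hL h4
    have h9 := mul_nonneg hl2 hK
    rw [abs_le]
    constructor <;> nlinarith
  have s2 : Summable fun K : ℕ => poissonWeight a K * |(K : ℝ) - a| := by
    refine summable_poi ha (C := a + 1) fun K => ?_
    have hK : (0 : ℝ) ≤ K := Nat.cast_nonneg K
    rw [abs_abs, abs_le]
    constructor <;> nlinarith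
  have hD := mul_le_mul_of_nonpos_left (poi_dev ha) hL
  have hs : ∀ x y : ℝ, HasSum (fun K : ℕ => poissonWeight a K * (x + y * |(K : ℝ) - a|))
      (x + y * ∑' K : ℕ, poissonWeight a K * |(K : ℝ) - a|) := fun x y => by
    have := ((hasSum_poi a).mul_right x).add (s2.hasSum.mul_left y)
    rw [one_mul] at this
    have e' : (fun K : ℕ => poissonWeight a K * (x + y * |(K : ℝ) - a|)) =
        fun K : ℕ => poissonWeight a K * x + y * (poissonWeight a K * |(K : ℝ) - a|) := by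
      funext K; ring
    rw [e']
    exact this
  rw [e]
  constructor
  · have h1 := hasSum_le (fun K : ℕ => mul_le_mul_of_nonneg_left (show
        Real.log q * (EV N m + |(m : ℝ) - a|) + Real.log q * |(K : ℝ) - a| ≤
          (satFM q hq).FZ N K by
        refine le_trans ?_ (FZ_sat q hq hN K).1
        rw [← mul_add]
        refine mul_le_mul_of_nonpos_left ?_ hL
        have h2 := ZeroT.EV_le_abs hN K m
        have h3 := abs_sub_le (K : ℝ) a m
        rw [abs_sub_comm a] at h3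
        linarith) (poi_nonneg ha K)) (hs _ _) s1.hasSum
    linarith
  · have h1 := hasSum_le (fun K : ℕ => mul_le_mul_of_nonneg_left (show
        (satFM q hq).FZ N K ≤ (N * Real.log 2 + Real.log q * (EV N m - |(m : ℝ) - a|)) +
          -Real.log q * |(K : ℝ) - a| by
        refine (FZ_sat q hq hN K).2.trans ?_
        have h2 := ZeroT.EV_le_abs hN m K
        have h3 := abs_sub_le (m : ℝ) a K
        rw [abs_sub_comm a] at h3
        have h4 : EV N m - |(m : ℝ) - a| - |(K : ℝ) - a| ≤ EV N K := by linarith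
        have h5 := mul_le_mul_of_nonpos_left h4 hL
        linarith) (poi_nonneg ha K)) s1.hasSum (hs _ _)
    linarith

theorem ev_small (c : ℝ) {ε : ℝ} (hε : 0 < ε) :
    ∀ᶠ N : ℕ in atTop, √(c * N) ≤ ε * N ∧ 1 ≤ ε * N := by
  filter_upwards [tendsto_natCast_atTop_atTop.eventually_ge_atTop (c / ε ^ 2),
    tendsto_natCast_atTop_atTop.eventually_ge_atTop (1 / ε)] with N h1 h2
  have hN : (0 : ℝ) ≤ N := Nat.cast_nonneg N
  rw [div_le_iff₀ (by positivity)] at h1 h2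
  refine ⟨Real.sqrt_le_iff.2 ⟨by positivity, ?_⟩, by linarith⟩
  nlinarith

end FinalT

/-- If `c < c' < α`: `pres N ≤ UP < 0` for all `N ≥ 1` (`upper_bound`, `pres_le_UP`, `adm_gridm`), but
`EV N K ≤ EV N ⌊c' N⌋ + |K - c N| ≤ ε N + |K - c N|` for large `N` (`EV_mono`, `EV_lip`, `EV_small`), so
`pres N ≥ log q · (ε + √(c/N))` (`FZ_sat`, `poi_dev`), a contradiction for small `ε`. -/
theorem le_of_negTrial {α : ℝ} (hα : IsSharpThreshold (satProb 3) α) {c : ℚ} (hc : 0 ≤ c)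
    (h : NegTrial c) : α ≤ c := by
  by_contra hlt
  rw [not_le] at hlt
  obtain ⟨q, hq, s, r, a, π, hπ, hU⟩ := h
  have hc' : (0 : ℝ) ≤ c := by exact_mod_cast hc
  set U := (satFM q hq).UP c (gridm s r) (fun u => (π u : ℝ)) with hUdef
  have hL : Real.log q < 0 := Real.log_neg hq.1 hq.2
  have hε : 0 < U / (5 * Real.log q) := div_pos_of_neg_of_neg hU (by linarith)
  obtain ⟨N, ⟨h1, h2, h3⟩, hN⟩ := (((EV_small hα hc' hlt hε).and (ev_small c hε)).and
    (eventually_ge_atTop 1)).exists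
  have hN' : (0 : ℝ) < N := by exact_mod_cast hN
  have h4 : (satFM q hq).pres c N ≤ U :=
    FM.pres_le_UP _ (fun t => FM.upper_bound _ (by norm_num) (satFM_pos q hq) hc' t hN)
      (adm_gridm s r) fun u => ⟨by exact_mod_cast (hπ u).1, by exact_mod_cast (hπ u).2⟩
  have hcN : 0 ≤ (c : ℝ) * N := by positivity
  have h5 := h1 ⌊(c : ℝ) * N⌋₊ (Nat.floor_le hcN)
  have h6 := (pres_bounds q hq hN hc' ⌊(c : ℝ) * N⌋₊).1
  have h7 : |(⌊(c : ℝ) * N⌋₊ : ℝ) - c * N| ≤ 1 := by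
    have a1 := Nat.floor_le hcN
    have a2 := Nat.lt_floor_add_one ((c : ℝ) * N)
    rw [abs_le]
    constructor <;> linarith
  have h8 : EV N ⌊(c : ℝ) * N⌋₊ + |(⌊(c : ℝ) * N⌋₊ : ℝ) - c * N| + √(c * N) ≤
      3 * (U / (5 * Real.log q) * N) := by linarith
  have h9 := mul_le_mul_of_nonpos_left h8 hL.le
  have e : Real.log q * (3 * (U / (5 * Real.log q) * N)) = 3 / 5 * (N * U) := by
    field_simp [hL.ne]
  have h10 := mul_le_mul_of_nonneg_left h4 hN'.le
  have h11 := mul_neg_of_pos_of_neg hN' hU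
  linarith

/-- Along `n = n₀ (w+1)`, `m = m₀ (w+1) = c n`: `Σ' poi (c n) K · EV n K ≥ EV n m - √m ≥ δ n - 2 √m - 1`,
so `pres n ≤ log 2 + log q · δ/2 ≤ -1` for large `w` if the rational `q` is small.  If all grid trials
had `P ≥ -1/2`, `lower_bound` would give `pres ≥ -3/4` eventually.  So some grid trial has
`P < -1/2`; `realize` with `η = 1/4`. -/
theorem negTrial_of_EV {n₀ m₀ : ℕ} (hn : 0 < n₀) {δ : ℝ} (hδ : 0 < δ)
    (h : ∀ w : ℕ, δ * (n₀ * (w + 1) : ℕ) ≤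
      EV (n₀ * (w + 1)) (m₀ * (w + 1)) + (Nat.sqrt (m₀ * (w + 1)) + 1 : ℕ)) :
    NegTrial ((m₀ : ℚ) / n₀) := by
  by_contra hno
  obtain ⟨q, hq0, hq1⟩ := exists_rat_btwn (Real.exp_pos (-(4 / δ)))
  have hq : 0 < (q : ℝ) ∧ (q : ℝ) < 1 :=
    ⟨hq0, hq1.trans (Real.exp_lt_one_iff.2 (by have := div_pos four_pos hδ; linarith))⟩
  have hL : Real.log q ≤ -(4 / δ) := (Real.log_le_iff_le_exp hq0).2 hq1.le
  set c : ℚ := (m₀ : ℚ) / n₀ with hcdef
  have hn' : (0 : ℝ) < n₀ := by exact_mod_cast hn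
  have hce : (c : ℝ) = (m₀ : ℝ) / n₀ := by rw [hcdef]; push_cast; rfl
  have hc : (0 : ℝ) ≤ c := by rw [hce]; positivity
  have hI : ∀ t : Trial, t.m = grid t.R → -(1 / 2) ≤ (satFM q hq).P c t := by
    intro t ht
    by_contra hlt
    obtain ⟨s, r, a, π, hπ, hU⟩ := FM.realize (satFM q hq) hc t ht (η := 1 / 4) (by norm_num)
    exact hno ⟨q, hq, s, r, a, π, fun u => ⟨(hπ u).1.le, (hπ u).2.le⟩, by linarith⟩
  obtain ⟨w, hw⟩ := eventually_atTop.1
    ((FM.lower_bound _ (by norm_num) hc hI (η := 1 / 4) (by norm_num)).and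
      (ev_small c (ε := δ / 8) (by positivity)))
  have hN : 0 < n₀ * (w + 1) := by positivity
  obtain ⟨h1, h2, h3⟩ := hw (n₀ * (w + 1)) (by nlinarith)
  have h4 := h w
  have h5 := (pres_bounds q hq hN hc (m₀ * (w + 1))).2
  have e : (c : ℝ) * (n₀ * (w + 1) : ℕ) = (m₀ * (w + 1) : ℕ) := by
    rw [hce]; push_cast; field_simp
  rw [e] at h2 h5
  rw [sub_self, abs_zero, sub_zero] at h5
  have h6 := Real.nat_sqrt_le_real_sqrt (a := m₀ * (w + 1))
  rw [Nat.cast_add (Nat.sqrt _), Nat.cast_one] at h4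
  have hN' : (0 : ℝ) < (n₀ * (w + 1) : ℕ) := by exact_mod_cast hN
  set N : ℝ := ((n₀ * (w + 1) : ℕ) : ℝ)
  have h7 : δ / 2 * N ≤ EV (n₀ * (w + 1)) (m₀ * (w + 1)) - √((m₀ * (w + 1) : ℕ) : ℝ) := by
    linarith
  have h8 := mul_le_mul_of_nonpos_left h7 (Real.log_nonpos hq.1.le hq.2.le)
  have h9 := mul_le_mul_of_nonneg_right hL (by positivity : 0 ≤ δ / 2 * N)
  have e2 : -(4 / δ) * (δ / 2 * N) = -2 * N := by field_simp; ring
  have h10 := mul_le_mul_of_nonneg_left h1 hN'.le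
  have h11 := mul_le_mul_of_nonneg_left Real.log_two_lt_d9.le hN'.le
  linarith

/-- `κ₀` from `EV_lower`, a rational `0 < κ₁ ≤ κ₀`, `g` from `EV_computable`.
`A (r,j,w) := g n m + (sqrt m + 1) < κ₁/8^r · n` with `n = 2^r (w+1)`, `m = j (w+1)`;
`B (r,j,w) := certB (j/2^r, w)`.  Soundness of `A`: if `j/2^r > α + 2^{-r}` then `EV_lower` (with
`η = 2^{-r}`, at `t n` for large `t`) contradicts `EV_super`.  `le_of_negTrial`, `negTrial_of_EV`,
`computable_of_certs`, `thr_nonneg`. -/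
theorem threshold_computable (α : ℝ) (hα : IsSharpThreshold (satProb 3) α) :
    ∃ f : ℕ → ℕ, Computable f ∧ ∀ r : ℕ, |(f r : ℝ) / 2 ^ r - α| ≤ 1 / 2 ^ r := by
  obtain ⟨κ₀, hκ₀, hlow⟩ := EV_lower hα
  obtain ⟨κ, hκ, hκ'⟩ := exists_rat_btwn hκ₀
  obtain ⟨g, hg, hgE⟩ := EV_computable
  obtain ⟨B, hB, hBiff⟩ := certB
  have p1 : Primrec fun x : ℕ × ℕ × ℕ => 2 ^ x.1 :=
    Lib.RatPrimrec.nat_pow.comp (Primrec.const 2) Primrec.fst
  have pw : Primrec fun x : ℕ × ℕ × ℕ => x.2.2 + 1 :=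
    Primrec.succ.comp (Primrec.snd.comp Primrec.snd)
  have pn : Primrec fun x : ℕ × ℕ × ℕ => 2 ^ x.1 * (x.2.2 + 1) := Primrec.nat_mul.comp p1 pw
  have pm : Primrec fun x : ℕ × ℕ × ℕ => x.2.1 * (x.2.2 + 1) :=
    Primrec.nat_mul.comp (Primrec.fst.comp Primrec.snd) pw
  have pl : Primrec fun x : ℕ × ℕ × ℕ => κ / 8 ^ x.1 * ((2 ^ x.1 * (x.2.2 + 1) : ℕ) : ℚ) :=
    Lib.RatPrimrec.rat_mul.comp (Lib.RatPrimrec.rat_div.comp (Primrec.const κ)
      (Lib.RatPrimrec.rat_pow.comp (Primrec.const 8) Primrec.fst))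
      (Lib.RatPrimrec.rat_natCast.comp pn)
  have pr : Computable fun x : ℕ × ℕ × ℕ => g (2 ^ x.1 * (x.2.2 + 1)) (x.2.1 * (x.2.2 + 1)) +
      ((Nat.sqrt (x.2.1 * (x.2.2 + 1)) + 1 : ℕ) : ℚ) :=
    Lib.RatPrimrec.rat_add.to_comp.comp (hg.comp pn.to_comp pm.to_comp)
      (Lib.RatPrimrec.rat_natCast.comp (Primrec.succ.comp (Primrec.nat_sqrt.comp pm))).to_comp
  have hc : ∀ r j : ℕ, (0 : ℚ) ≤ (j : ℚ) / ((2 ^ r : ℕ) : ℚ) := fun r j => by positivity
  have hiff : ∀ r j w : ℕ, κ / 8 ^ r * ((2 ^ r * (w + 1) : ℕ) : ℚ) ≤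
      g (2 ^ r * (w + 1)) (j * (w + 1)) + ((Nat.sqrt (j * (w + 1)) + 1 : ℕ) : ℚ) ↔
      (κ : ℝ) / 8 ^ r * ((2 ^ r * (w + 1) : ℕ) : ℝ) ≤
        EV (2 ^ r * (w + 1)) (j * (w + 1)) + ((Nat.sqrt (j * (w + 1)) + 1 : ℕ) : ℝ) := by
    intro r j w
    rw [← hgE _ _ (by positivity), ← Rat.cast_le (K := ℝ)]
    simp only [Rat.cast_mul, Rat.cast_div, Rat.cast_pow, Rat.cast_ofNat, Rat.cast_natCast,
      Rat.cast_add]
  refine computable_of_certs α (thr_nonneg hα)
    (fun x => !decide (κ / 8 ^ x.1 * ((2 ^ x.1 * (x.2.2 + 1) : ℕ) : ℚ) ≤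
      g (2 ^ x.1 * (x.2.2 + 1)) (x.2.1 * (x.2.2 + 1)) +
        ((Nat.sqrt (x.2.1 * (x.2.2 + 1)) + 1 : ℕ) : ℚ)))
    (fun x => B ((x.2.1 : ℚ) / ((2 ^ x.1 : ℕ) : ℚ), x.2.2))
    (Primrec.not.to_comp.comp (Lib.RatPrimrec.rat_le.decide.to_comp.comp pl.to_comp pr))
    (hB.comp ((Lib.RatPrimrec.rat_div.comp
      (Lib.RatPrimrec.rat_natCast.comp (Primrec.fst.comp Primrec.snd))
      (Lib.RatPrimrec.rat_natCast.comp p1)).pair (Primrec.snd.comp Primrec.snd)).to_comp)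
    (fun r j w h => ?_) (fun r j w h => ?_) (fun r j => ?_)
  · simp only [Bool.not_eq_eq_eq_not, Bool.not_true, decide_eq_false_iff_not, hiff, not_le] at h
    by_contra hlt
    rw [not_le] at hlt
    have h2r : (0 : ℝ) < 2 ^ r := by positivity
    obtain ⟨t₀, ht₀⟩ := eventually_atTop.1 (hlow (1 / 2 ^ r) (by positivity)
      (by rw [div_le_one h2r]; exact one_le_pow₀ (by norm_num)))
    have hn : 0 < 2 ^ r * (w + 1) := by positivity
    have h1 := ht₀ ((t₀ + 1) * (2 ^ r * (w + 1))) (by nlinarith) ((t₀ + 1) * (j * (w + 1))) (by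
      refine (mul_le_mul_of_nonneg_right hlt.le (Nat.cast_nonneg _)).trans (le_of_eq ?_)
      push_cast
      field_simp)
    have h2 := h1.trans (EV_super hn (Nat.succ_pos t₀) (j * (w + 1)))
    rw [Nat.cast_mul (t₀ + 1), mul_left_comm] at h2
    have h3 := le_of_mul_le_mul_left h2 (by positivity)
    have h4 := Real.real_sqrt_le_nat_sqrt_succ (a := j * (w + 1))
    rw [Nat.cast_add (Nat.sqrt _), Nat.cast_one] at h
    have h5 : (κ : ℝ) / 8 ^ r ≤ κ₀ * (1 / 2 ^ r) ^ 3 := by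
      rw [div_pow, one_pow, ← pow_mul, mul_comm r 3, pow_mul, mul_one_div]
      norm_num
      gcongr
    have h6 := mul_le_mul_of_nonneg_right h5 (Nat.cast_nonneg (α := ℝ) (2 ^ r * (w + 1)))
    linarith
  · have := le_of_negTrial hα (hc r j) ((hBiff _ (hc r j)).1 ⟨w, h⟩)
    simpa using this
  · by_cases h : ∀ w : ℕ, (κ : ℝ) / 8 ^ r * ((2 ^ r * (w + 1) : ℕ) : ℝ) ≤
        EV (2 ^ r * (w + 1)) (j * (w + 1)) + ((Nat.sqrt (j * (w + 1)) + 1 : ℕ) : ℝ)
    · exact Or.inr ((hBiff _ (hc r j)).2 (negTrial_of_EV (by positivity) (by positivity) h))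
    · obtain ⟨w, hw⟩ := not_forall.1 h
      refine Or.inl ⟨w, ?_⟩
      simp only [Bool.not_eq_eq_eq_not, Bool.not_true, decide_eq_false_iff_not, hiff]
      exact hw

end Crest.Agent.R153
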